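import Mathlib

namespace Vale.Agent.H11.CoarseInj

/-- Coarse injectivity (coarse Helly property for balls). -/
def CoarselyInjective (K : ℝ) (M : Type*) [MetricSpace M] : Prop :=
  ∀ g : M → ℝ, (∀ x y, dist x y ≤ g x + g y) → ∃ m, ∀ x, dist m x ≤ g x + K

end Vale.Agent.H11.CoarseInj
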