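import Vale.Agent.H11.CoarseDefs

set_option linter.unusedSectionVars false

open Filter Topology Set

namespace Vale.Agent.H11.CoarseInj

variable {M : Type*} [MetricSpace M]

/-- the admissible functions -/
def Adm (g : M → ℝ) : Prop := ∀ x y, dist x y ≤ g x + g y

lemma Adm.nonneg {g : M → ℝ} (hg : Adm g) (x : M) : 0 ≤ g x := by
  have := hg x x
  rw [dist_self] at this
  linarith

/-- the conjugate function -/
noncomputable def star (g : M → ℝ) (x : M) : ℝ := ⨆ y, (dist x y - g y)

lemma Adm.bdd {g : M → ℝ} (hg : Adm g) (x : M) : BddAbove (range fun y => dist x y - g y) := by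
  refine ⟨g x, ?_⟩
  rintro _ ⟨y, rfl⟩
  have := hg x y
  simp only
  linarith

lemma Adm.star_le {g : M → ℝ} (hg : Adm g) (x : M) : star g x ≤ g x := by
  have : Nonempty M := ⟨x⟩
  apply ciSup_le
  intro y
  have := hg x y
  linarith

lemma Adm.le_star {g : M → ℝ} (hg : Adm g) (x y : M) : dist x y - g y ≤ star g x :=
  le_ciSup (hg.bdd x) y

lemma star_lip {g h : M → ℝ} (hg : Adm g) (hh : Adm h) {r : ℝ} (hr : ∀ x, g x ≤ h x + r) (x : M) :
    star h x ≤ star g x + r := by
  have : Nonempty M := ⟨x⟩
  apply ciSup_le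
  intro y
  have h1 := hg.le_star x y
  have h2 := hr y
  linarith

/-- one step of the averaging procedure -/
noncomputable def avg (g : M → ℝ) (x : M) : ℝ := (g x + star g x) / 2

lemma Adm.avg {g : M → ℝ} (hg : Adm g) : Adm (avg g) := by
  intro x y
  have h1 := hg.le_star x y
  have h2 := hg.le_star y x
  rw [dist_comm y x] at h2
  unfold CoarseInj.avg
  linarith

lemma Adm.avg_le {g : M → ℝ} (hg : Adm g) (x : M) : CoarseInj.avg g x ≤ g x := by
  have := hg.star_le x
  unfold CoarseInj.avg
  linarith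

lemma avg_lip {g h : M → ℝ} (hg : Adm g) (hh : Adm h) {r : ℝ} (hr : ∀ x, g x ≤ h x + r)
    (hr' : ∀ x, h x ≤ g x + r) (x : M) : avg g x ≤ avg h x + r := by
  have h1 := star_lip hh hg hr' x
  have h2 := hr x
  unfold avg
  linarith

/-- iterated averaging -/
noncomputable def it (g : M → ℝ) : ℕ → M → ℝ
  | 0 => g
  | (n+1) => avg (it g n)

lemma Adm.it {g : M → ℝ} (hg : Adm g) (n : ℕ) : Adm (it g n) := by
  induction n with
  | zero => exact hg
  | succ n ih => exact ih.avg

lemma Adm.it_antitone {g : M → ℝ} (hg : Adm g) (x : M) : Antitone (fun n => CoarseInj.it g n x) := by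
  apply antitone_nat_of_succ_le
  intro n
  exact (hg.it n).avg_le x

lemma it_lip {g h : M → ℝ} (hg : Adm g) (hh : Adm h) {r : ℝ} (hr : ∀ x, g x ≤ h x + r)
    (hr' : ∀ x, h x ≤ g x + r) (n : ℕ) :
    (∀ x, it g n x ≤ it h n x + r) ∧ (∀ x, it h n x ≤ it g n x + r) := by
  induction n with
  | zero => exact ⟨hr, hr'⟩
  | succ n ih =>
    exact ⟨avg_lip (hg.it n) (hh.it n) ih.1 ih.2, avg_lip (hh.it n) (hg.it n) ih.2 ih.1⟩

/-- the limit of the averaging procedure -/
noncomputable def lim (g : M → ℝ) (x : M) : ℝ := ⨅ n, it g n x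

lemma Adm.bddBelow {g : M → ℝ} (hg : Adm g) (x : M) : BddBelow (range fun n => CoarseInj.it g n x) := by
  refine ⟨0, ?_⟩
  rintro _ ⟨n, rfl⟩
  exact (hg.it n).nonneg x

lemma Adm.tendsto {g : M → ℝ} (hg : Adm g) (x : M) :
    Tendsto (fun n => CoarseInj.it g n x) atTop (𝓝 (CoarseInj.lim g x)) :=
  tendsto_atTop_ciInf (hg.it_antitone x) (hg.bddBelow x)

lemma Adm.lim {g : M → ℝ} (hg : Adm g) : Adm (CoarseInj.lim g) := by
  intro x y
  exact ge_of_tendsto' ((hg.tendsto x).add (hg.tendsto y)) (fun n => hg.it n x y)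

lemma Adm.lim_le {g : M → ℝ} (hg : Adm g) (x : M) : CoarseInj.lim g x ≤ g x :=
  ciInf_le (hg.bddBelow x) 0

lemma Adm.lim_le_it {g : M → ℝ} (hg : Adm g) (n : ℕ) (x : M) :
    CoarseInj.lim g x ≤ CoarseInj.it g n x :=
  ciInf_le (hg.bddBelow x) n

lemma lim_lip {g h : M → ℝ} (hg : Adm g) (hh : Adm h) {r : ℝ} (hr : ∀ x, g x ≤ h x + r)
    (hr' : ∀ x, h x ≤ g x + r) (x : M) : lim g x ≤ lim h x + r := by
  have := it_lip hg hh hr hr'
  exact le_of_tendsto_of_tendsto' (hg.tendsto x) ((hh.tendsto x).add_const r)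
    (fun n => (this n).1 x)

/-- extremality of the limit -/
lemma Adm.extremal {g : M → ℝ} (hg : Adm g) (x : M) {ε : ℝ} (hε : 0 < ε) :
    ∃ y, CoarseInj.lim g x - ε < dist x y - CoarseInj.lim g y := by
  have : Nonempty M := ⟨x⟩
  have h1 : Tendsto (fun n => 2 * CoarseInj.it g (n+1) x - CoarseInj.it g n x) atTop
      (𝓝 (2 * CoarseInj.lim g x - CoarseInj.lim g x)) :=
    (((hg.tendsto x).comp (tendsto_add_atTop_nat 1)).const_mul 2).sub (hg.tendsto x)
  have h2 : 2 * CoarseInj.lim g x - CoarseInj.lim g x = CoarseInj.lim g x := by ring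
  rw [h2] at h1
  have h3 : ∀ᶠ n in atTop, CoarseInj.lim g x - ε < 2 * CoarseInj.it g (n+1) x - CoarseInj.it g n x :=
    h1.eventually (lt_mem_nhds (by linarith))
  obtain ⟨n, hn⟩ := h3.exists
  have h4 : 2 * CoarseInj.it g (n+1) x - CoarseInj.it g n x = CoarseInj.star (CoarseInj.it g n) x := by
    show 2 * CoarseInj.avg (CoarseInj.it g n) x - CoarseInj.it g n x = _
    unfold CoarseInj.avg
    ring
  rw [h4] at hn
  obtain ⟨y, hy⟩ := exists_lt_of_lt_ciSup hn
  refine ⟨y, hy.trans_le ?_⟩
  have := hg.lim_le_it n y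
  linarith

lemma exists_center {K : ℝ} (hM : CoarselyInjective K M) {g : M → ℝ} (hg : Adm g) :
    ∃ m, (∀ x, dist m x ≤ lim g x + K) ∧ lim g m ≤ K := by
  obtain ⟨m, hm⟩ := hM (lim g) hg.lim
  refine ⟨m, hm, ?_⟩
  apply le_of_forall_pos_lt_add
  intro ε hε
  obtain ⟨y, hy⟩ := hg.extremal m hε
  have := hm y
  linarith

/-- Main construction: coarsely Lipschitz maps with finite range almost fixing a finite set. -/
theorem exists_coarse {K s : ℝ} (hM : CoarselyInjective K M) (hs : 0 < s)
    (A : Finset M) (hA : A.Nonempty) :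
    ∃ ψ : M → M, (Set.range ψ).Finite ∧ (∀ a ∈ A, dist (ψ a) a ≤ s + K) ∧
      (∀ x y, dist (ψ x) (ψ y) ≤ dist x y + s + 2 * K) ∧
      ∀ x, ∀ a ∈ A, dist (ψ x) a ≤ dist x a + 2 * s + K := by
  classical
  have : Nonempty A := hA.to_subtype
  -- a bound for the truncation
  obtain ⟨D, hD⟩ : ∃ D : ℕ, ∀ a ∈ A, ∀ b ∈ A, ⌊dist a b / s⌋₊ ≤ D := by
    refine ⟨(A ×ˢ A).sup (fun p => ⌊dist p.1 p.2 / s⌋₊), ?_⟩
    intro a ha b hb
    exact Finset.le_sup (f := fun p : M × M => ⌊dist p.1 p.2 / s⌋₊) (b := (a, b))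
      (Finset.mem_product.2 ⟨ha, hb⟩)
  let c : M → (A → ℝ) := fun x a => ((min ⌊dist x a / s⌋₊ D : ℕ) : ℝ)
  have hcfin : (Set.range c).Finite := by
    have : Set.range c ⊆ Set.range (fun k : A → Fin (D+1) => fun a => ((k a : ℕ) : ℝ)) := by
      rintro _ ⟨x, rfl⟩
      refine ⟨fun a => ⟨min ⌊dist x a / s⌋₊ D, ?_⟩, rfl⟩
      exact Nat.lt_succ_of_le (min_le_right _ _)
    exact (Set.finite_range _).subset this
  have hclip : ∀ x y : M, s * dist (c x) (c y) ≤ dist x y + s := by
    intro x y
    have h1 : dist (c x) (c y) ≤ dist x y / s + 1 := by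
      rw [dist_pi_le_iff (by positivity)]
      intro a
      simp only [c, Real.dist_eq]
      -- | min m D - min n D | ≤ |m - n| ≤ d/s + 1
      have key : ∀ x y : M, ((min ⌊dist x a / s⌋₊ D : ℕ) : ℝ) - ((min ⌊dist y a / s⌋₊ D : ℕ) : ℝ)
          ≤ dist x y / s + 1 := by
        intro x y
        have hx0 : 0 ≤ dist x a / s := by positivity
        have hy0 : 0 ≤ dist y a / s := by positivity
        have f1 : (⌊dist x a / s⌋₊ : ℝ) ≤ dist x a / s := Nat.floor_le hx0
        have f2 : dist y a / s < ⌊dist y a / s⌋₊ + 1 := Nat.lt_floor_add_one _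
        have f3 : dist x a / s ≤ dist x y / s + dist y a / s := by
          rw [← add_div]
          exact div_le_div_of_nonneg_right (dist_triangle _ _ _) hs.le
        have f4 : 0 ≤ dist x y / s := by positivity
        push_cast
        rcases le_total (⌊dist y a / s⌋₊ : ℝ) (D:ℝ) with h | h
        · rw [min_eq_left h]
          have : min (⌊dist x a / s⌋₊ : ℝ) (D:ℝ) ≤ ⌊dist x a / s⌋₊ := min_le_left _ _
          linarith
        · rw [min_eq_right h]
          have : min (⌊dist x a / s⌋₊ : ℝ) (D:ℝ) ≤ D := min_le_right _ _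
          linarith
      rw [abs_le]
      constructor
      · have := key y x
        rw [dist_comm y x] at this
        linarith
      · exact key x y
    calc s * dist (c x) (c y) ≤ s * (dist x y / s + 1) := by gcongr
      _ = dist x y + s := by field_simp
  have hclow : ∀ a ∈ A, ∀ b ∈ A, dist a b ≤ s * dist (c a) (c b) + s := by
    intro a ha b hb
    have h1 : ((⌊dist a b / s⌋₊ : ℕ) : ℝ) ≤ dist (c a) (c b) := by
      have h2 := dist_le_pi_dist (c a) (c b) ⟨a, ha⟩
      simp only [c, Real.dist_eq] at h2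
      rw [dist_self, zero_div, Nat.floor_zero, Nat.zero_min, Nat.cast_zero, zero_sub, abs_neg,
        dist_comm b a, min_eq_left (hD a ha b hb), Nat.abs_cast] at h2
      exact h2
    have h3 : dist a b / s < ⌊dist a b / s⌋₊ + 1 := Nat.lt_floor_add_one _
    have h4 : dist a b / s ≤ dist (c a) (c b) + 1 := by linarith
    rw [div_le_iff₀ hs] at h4
    linarith
  -- the functions f_p
  let f : (A → ℝ) → M → ℝ := fun p x => ⨅ a : A, (s * dist p (c a) + s + dist (a:M) x)
  have hfbdd : ∀ p x, BddBelow (range fun a : A => (s * dist p (c a) + s + dist (a:M) x)) :=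
    fun p x => Set.Finite.bddBelow (Set.finite_range _)
  have hfle : ∀ p x (a : A), f p x ≤ s * dist p (c a) + s + dist (a:M) x := fun p x a =>
    ciInf_le (hfbdd p x) a
  have hfex : ∀ p x, ∃ a : A, f p x = s * dist p (c a) + s + dist (a:M) x := by
    intro p x
    obtain ⟨a, ha⟩ := exists_eq_ciInf_of_finite
      (f := fun a : A => (s * dist p (c a) + s + dist (a:M) x))
    exact ⟨a, ha.symm⟩
  have hfadm : ∀ p, Adm (f p) := by
    intro p x y
    obtain ⟨a, ha⟩ := hfex p x
    obtain ⟨b, hb⟩ := hfex p y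
    rw [ha, hb]
    have h1 := hclow a a.2 b b.2
    have h2 : dist (c a) (c b) ≤ dist p (c a) + dist p (c b) := by
      rw [dist_comm p (c a)]; exact dist_triangle _ _ _
    have h3 : dist x y ≤ dist (a:M) x + dist (a:M) b + dist (b:M) y := by
      calc dist x y ≤ dist x a + dist (a:M) y := dist_triangle _ _ _
        _ ≤ dist x a + (dist (a:M) b + dist (b:M) y) := by gcongr; exact dist_triangle _ _ _
        _ = _ := by rw [dist_comm x a]; ring
    have h4 : s * dist (c a) (c b) ≤ s * dist p (c a) + s * dist p (c b) := by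
      rw [← mul_add]; gcongr
    linarith
  have hflip : ∀ p q x, f p x ≤ f q x + s * dist p q := by
    intro p q x
    obtain ⟨a, ha⟩ := hfex q x
    rw [ha]
    have h1 := hfle p x a
    have h2 : s * dist p (c a) ≤ s * dist p q + s * dist q (c a) := by
      rw [← mul_add]; gcongr; exact dist_triangle _ _ _
    linarith
  choose m hm1 hm2 using fun p => exists_center hM (hfadm p)
  have hmm : ∀ p q, dist (m p) (m q) ≤ s * dist p q + 2 * K := by
    intro p q
    have h1 := hm1 p (m q)
    have h2 := lim_lip (hfadm p) (hfadm q) (r := s * dist p q) (hflip p q)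
      (fun x => by rw [dist_comm p q]; exact hflip q p x) (m q)
    have h3 := hm2 q
    linarith
  have hma : ∀ p, ∀ a ∈ A, dist (m p) a ≤ s * dist p (c a) + s + K := by
    intro p a ha
    have h1 := hm1 p a
    have h2 := (hfadm p).lim_le a
    have h3 := hfle p a ⟨a, ha⟩
    simp only [dist_self, add_zero] at h3
    linarith
  refine ⟨fun x => m (c x), ?_, ?_, ?_, ?_⟩
  · apply (hcfin.image m).subset
    rintro _ ⟨x, rfl⟩
    exact mem_image_of_mem _ (mem_range_self x)
  · intro a ha
    have := hma (c a) a ha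
    rw [dist_self, mul_zero, zero_add] at this
    exact this
  · intro x y
    have h1 := hmm (c x) (c y)
    have h2 := hclip x y
    linarith
  · intro x a ha
    have h1 := hma (c x) a ha
    have h2 := hclip x a
    linarith

/-- Finite range Lipschitz maps fixing a finite set, for separated coarsely injective spaces. -/
theorem exists_finite_range {K s : ℝ} (hK : 0 ≤ K) (hM : CoarselyInjective K M) (hs : 0 < s)
    (hsep : ∀ x y : M, x ≠ y → s ≤ dist x y) (A : Finset M) (hA : A.Nonempty) :
    ∃ φ : M → M, (Set.range φ).Finite ∧ (∀ a ∈ A, φ a = a) ∧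
      ∀ x y, dist (φ x) (φ y) ≤ (3 + 2 * K / s) * dist x y := by
  classical
  obtain ⟨ψ, hfin, hψA, hψ, hψA'⟩ := exists_coarse hM hs A hA
  refine ⟨fun x => if x ∈ A then x else ψ x, ?_, ?_, ?_⟩
  · apply ((A.finite_toSet).union hfin).subset
    rintro _ ⟨x, rfl⟩
    by_cases hx : x ∈ A
    · left; simp [hx]
    · right; simp only [hx, if_false]; exact mem_range_self x
  · intro a ha; simp [ha]
  · intro x y
    by_cases hxy : x = y
    · subst hxy; simp
    have hsd := hsep x y hxy
    have hKs : 2 * K ≤ 2 * K / s * dist x y := by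
      have : 2 * K = 2 * K / s * s := by field_simp
      calc 2 * K = 2 * K / s * s := this
        _ ≤ 2 * K / s * dist x y := by gcongr
    have hd : 0 ≤ dist x y := dist_nonneg
    by_cases hx : x ∈ A
    · by_cases hy : y ∈ A
      · simp only [hx, hy, if_true]
        nlinarith
      · simp only [hx, hy, if_true, if_false]
        rw [dist_comm]
        have h1 := hψA' y x hx
        rw [dist_comm y x] at h1
        nlinarith
    · by_cases hy : y ∈ A
      · simp only [hx, hy, if_true, if_false]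
        have h1 := hψA' x y hy
        nlinarith
      · simp only [hx, hy, if_false]
        have h1 := hψ x y
        nlinarith

/-- Finite range Lipschitz maps fixing a finite set, for separated coarse Lipschitz retracts of
coarsely injective spaces. -/
theorem exists_finite_range_retract {N : Type*} [MetricSpace N] {K s L : ℝ} (hK : 0 ≤ K)
    (hL : 0 ≤ L) (hN : CoarselyInjective K N) (hs : 0 < s)
    (hsep : ∀ x y : M, x ≠ y → s ≤ dist x y) (i : M → N) (r : N → M)
    (hi : ∀ x y, dist (i x) (i y) ≤ L * dist x y + L)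
    (hr : ∀ u v, dist (r u) (r v) ≤ L * dist u v + L)
    (hri : ∀ x, dist (r (i x)) x ≤ L) (A : Finset M) (hA : A.Nonempty) :
    ∃ φ : M → M, (Set.range φ).Finite ∧ (∀ a ∈ A, φ a = a) ∧
      ∀ x y, dist (φ x) (φ y) ≤
        (1 + L * L + (L * (L + 1 + 2 * K) + L * (1 + K) + 3 * L) / s) * dist x y := by
  classical
  obtain ⟨ψ, hfin, hψA, hψ, -⟩ := exists_coarse hN one_pos (A.image i) (hA.image i)
  refine ⟨fun x => if x ∈ A then x else r (ψ (i x)), ?_, ?_, ?_⟩
  · apply ((A.finite_toSet).union (hfin.image r)).subset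
    rintro _ ⟨x, rfl⟩
    by_cases hx : x ∈ A
    · left; simp [hx]
    · right; simp only [hx, if_false]; exact mem_image_of_mem _ (mem_range_self _)
  · intro a ha; simp [ha]
  · set E : ℝ := L * (L + 1 + 2 * K) + L * (1 + K) + 3 * L with hE
    have hE0 : 0 ≤ E := by positivity
    have key1 : ∀ x y, dist (r (ψ (i x))) (r (ψ (i y))) ≤
        L * L * dist x y + L * (L + 1 + 2 * K) + L := by
      intro x y
      have h1 := hr (ψ (i x)) (ψ (i y))
      have h2 := hψ (i x) (i y)
      have h3 := hi x y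
      have h4 : L * dist (ψ (i x)) (ψ (i y)) ≤ L * (L * dist x y + L + 1 + 2 * K) := by
        apply mul_le_mul_of_nonneg_left _ hL
        linarith
      nlinarith
    have key2 : ∀ x ∈ A, ∀ y, dist x (r (ψ (i y))) ≤ L * L * dist x y + E := by
      intro x hx y
      have h1 := key1 x y
      have h2 := hri x
      have h3 := hr (i x) (ψ (i x))
      have h4 := hψA (i x) (Finset.mem_image_of_mem i hx)
      rw [dist_comm] at h4
      have h5 : L * dist (i x) (ψ (i x)) ≤ L * (1 + K) := mul_le_mul_of_nonneg_left h4 hL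
      have h6 : dist x (r (ψ (i y))) ≤ dist (r (i x)) x + dist (r (i x)) (r (ψ (i x)))
          + dist (r (ψ (i x))) (r (ψ (i y))) := by
        calc dist x (r (ψ (i y))) ≤ dist x (r (i x)) + dist (r (i x)) (r (ψ (i y))) :=
              dist_triangle _ _ _
          _ ≤ dist x (r (i x)) + (dist (r (i x)) (r (ψ (i x)))
              + dist (r (ψ (i x))) (r (ψ (i y)))) := by
                gcongr
                exact dist_triangle _ _ _
          _ = _ := by rw [dist_comm x]; ring
      rw [hE]
      linarith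
    intro x y
    by_cases hxy : x = y
    · subst hxy; simp
    have hsd := hsep x y hxy
    have hEs : E ≤ E / s * dist x y := by
      have : E = E / s * s := by field_simp
      calc E = E / s * s := this
        _ ≤ E / s * dist x y := by gcongr
    have hd : 0 ≤ dist x y := dist_nonneg
    have hexp : (1 + L * L + E / s) * dist x y = dist x y + L * L * dist x y + E / s * dist x y := by
      ring
    rw [hexp]
    have hLL : 0 ≤ L * L * dist x y := by positivity
    by_cases hx : x ∈ A
    · by_cases hy : y ∈ A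
      · simp only [hx, hy, if_true]
        linarith
      · simp only [hx, hy, if_true, if_false]
        have := key2 x hx y
        linarith
    · by_cases hy : y ∈ A
      · simp only [hx, hy, if_true, if_false]
        have := key2 y hy x
        rw [dist_comm y (r _), dist_comm y x] at this
        linarith
      · simp only [hx, hy, if_false]
        have h1 := key1 x y
        rw [hE]
        have : 0 ≤ L * (1 + K) := by positivity
        linarith

/-- Roughly geodesic Gromov hyperbolic spaces are coarsely injective. -/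
theorem coarselyInjective_of_hyperbolic {δ c : ℝ} [Nonempty M]
    (hyp : ∀ w x y z : M, dist w x + dist y z ≤
      max (dist w y + dist x z) (dist w z + dist x y) + 2 * δ)
    (hgeo : ∀ x y : M, ∀ t : ℝ, 0 ≤ t → t ≤ dist x y →
      ∃ m, dist x m ≤ t + c ∧ dist m y ≤ dist x y - t + c) :
    CoarselyInjective (2 * δ + c + 1) M := by
  intro g hg
  have hadm : Adm g := hg
  obtain ⟨x⟩ := (inferInstance : Nonempty M)
  obtain ⟨y, hy⟩ := hadm.extremal x one_pos
  have hl := hadm.lim
  have hx0 := hl.nonneg x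
  have hy0 := hl.nonneg y
  obtain ⟨m, hm1, hm2⟩ := hgeo x y (min (lim g x) (dist x y)) (le_min hx0 dist_nonneg)
    (min_le_right _ _)
  have h1 : dist m x ≤ lim g x + c := by
    rw [dist_comm]
    exact hm1.trans (by gcongr; exact min_le_left _ _)
  have h2 : dist m y ≤ lim g y + c := by
    apply hm2.trans
    have h3 := hl x y
    rcases le_total (lim g x) (dist x y) with h | h
    · rw [min_eq_left h]; linarith
    · rw [min_eq_right h]; linarith
  refine ⟨m, fun z => ?_⟩
  have h3 := hyp m z x y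
  have h4 := hl z x
  have h5 := hl z y
  have h6 := hadm.lim_le z
  rcases le_total (dist m x + dist z y) (dist m y + dist z x) with h | h
  · rw [max_eq_right h] at h3; linarith
  · rw [max_eq_left h] at h3; linarith

/-- Bounded function spaces are injective. -/
theorem coarselyInjective_lp (ι : Type*) :
    CoarselyInjective 0 (lp (fun _ : ι => ℝ) ⊤) := by
  intro g hg
  have hadm : Adm g := hg
  have hlow : ∀ (v : lp (fun _ : ι => ℝ) ⊤) (i : ι) (u : lp (fun _ : ι => ℝ) ⊤),
      v i - g v ≤ u i + g u := by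
    intro v i u
    have h1 : |v i - u i| ≤ ‖v - u‖ := by
      have := lp.norm_apply_le_norm ENNReal.top_ne_zero (v - u) i
      simpa using this
    have h2 := hg v u
    rw [dist_eq_norm] at h2
    have h3 := le_abs_self (v i - u i)
    linarith
  have hbdd : ∀ i, BddBelow (range fun u : lp (fun _ : ι => ℝ) ⊤ => u i + g u) := by
    intro i
    refine ⟨(0 : lp (fun _ : ι => ℝ) ⊤) i - g 0, ?_⟩
    rintro _ ⟨u, rfl⟩
    exact hlow 0 i u
  let f : ι → ℝ := fun i => ⨅ u : lp (fun _ : ι => ℝ) ⊤, (u i + g u)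
  have hf1 : ∀ v i, f i ≤ v i + g v := fun v i => ciInf_le (hbdd i) v
  have hf2 : ∀ (v : lp (fun _ : ι => ℝ) ⊤) i, v i - g v ≤ f i := fun v i => le_ciInf (hlow v i)
  have hfb : ∀ i, |f i| ≤ g 0 := by
    intro i
    have h1 := hf1 0 i
    have h2 := hf2 0 i
    rw [lp.coeFn_zero, Pi.zero_apply] at h1 h2
    rw [abs_le]
    constructor <;> linarith
  have hmem : Memℓp f ⊤ := memℓp_infty ⟨g 0, by
    rintro _ ⟨i, rfl⟩
    exact hfb i⟩
  refine ⟨⟨f, hmem⟩, fun v => ?_⟩
  rw [dist_eq_norm, add_zero]
  apply lp.norm_le_of_forall_le (hadm.nonneg v)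
  intro i
  have h1 := hf1 v i
  have h2 := hf2 v i
  show |f i - v i| ≤ g v
  rw [abs_le]
  constructor <;> linarith

end Vale.Agent.H11.CoarseInj
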