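import Vale.Agent.H11.FreeDefs
import Vale.Agent.H11.CoarseInj

set_option linter.unusedSectionVars false

open Filter Topology Set

namespace Vale.Agent.H11.FreeBAP

variable {M : Type*} [MetricSpace M] {o : M}

/-- composition with a Lipschitz map fixing the base point, divided by the constant -/
noncomputable def compBall (φ : M → M) (h0 : φ o = o) (L : ℝ) (hL : 0 < L)
    (hφ : ∀ x y, dist (φ x) (φ y) ≤ L * dist x y) (f : LipBall M o) : LipBall M o :=
  ⟨fun x => L⁻¹ * f.1 (φ x), by simp only [h0, f.2.1, mul_zero], fun x y => by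
    have h1 : L⁻¹ * f.1 (φ x) - L⁻¹ * f.1 (φ y) = L⁻¹ * (f.1 (φ x) - f.1 (φ y)) := by ring
    rw [h1, abs_mul, abs_of_pos (inv_pos.2 hL)]
    calc L⁻¹ * |f.1 (φ x) - f.1 (φ y)| ≤ L⁻¹ * dist (φ x) (φ y) :=
          mul_le_mul_of_nonneg_left (f.2.2 _ _) (inv_pos.2 hL).le
      _ ≤ L⁻¹ * (L * dist x y) := mul_le_mul_of_nonneg_left (hφ x y) (inv_pos.2 hL).le
      _ = dist x y := by field_simp⟩

lemma continuous_compBall (φ : M → M) (h0 : φ o = o) (L : ℝ) (hL : 0 < L)
    (hφ : ∀ x y, dist (φ x) (φ y) ≤ L * dist x y) : Continuous (compBall φ h0 L hL hφ) := by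
  apply Continuous.subtype_mk
  apply continuous_pi
  intro x
  exact continuous_const.mul (continuous_eval (φ x))

/-- the operator induced by a Lipschitz map fixing the base point -/
noncomputable def push (φ : M → M) (h0 : φ o = o) (L : ℝ) (hL : 0 < L)
    (hφ : ∀ x y, dist (φ x) (φ y) ≤ L * dist x y) :
    BoundedContinuousFunction (LipBall M o) ℝ →L[ℝ] BoundedContinuousFunction (LipBall M o) ℝ :=
  LinearMap.mkContinuous
    { toFun := fun F => L • F.compContinuous ⟨_, continuous_compBall φ h0 L hL hφ⟩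
      map_add' := fun F G => by
        ext f
        simp [mul_add]
      map_smul' := fun a F => by
        ext f
        simp [mul_left_comm] } L (fun F => by
        rw [BoundedContinuousFunction.norm_le (by positivity)]
        intro f
        show ‖L * F (compBall φ h0 L hL hφ f)‖ ≤ _
        rw [norm_mul, Real.norm_eq_abs, abs_of_pos hL]
        exact mul_le_mul_of_nonneg_left (F.norm_coe_le_norm _) hL.le)

lemma norm_push_le (φ : M → M) (h0 : φ o = o) (L : ℝ) (hL : 0 < L)
    (hφ : ∀ x y, dist (φ x) (φ y) ≤ L * dist x y) : ‖push φ h0 L hL hφ‖ ≤ L :=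
  LinearMap.mkContinuous_norm_le _ hL.le _

lemma push_delta (φ : M → M) (h0 : φ o = o) (L : ℝ) (hL : 0 < L)
    (hφ : ∀ x y, dist (φ x) (φ y) ≤ L * dist x y) (x : M) :
    push φ h0 L hL hφ (delta o x) = delta o (φ x) := by
  ext f
  show L * (L⁻¹ * f.1 (φ x)) = f.1 (φ x)
  field_simp

section generic

variable {X ι : Type*} [NormedAddCommGroup X] [NormedSpace ℝ X]

lemma span_le_closedSpan (δ : ι → X) : Submodule.span ℝ (Set.range δ) ≤ closedSpan δ :=
  Submodule.le_topologicalClosure _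

lemma exists_restrict (F : Submodule ℝ X) (P : X →L[ℝ] X) (V : Submodule ℝ X)
    [FiniteDimensional ℝ V] (hV : V ≤ F) (h : ∀ u ∈ F, P u ∈ V) {c : ℝ} (hc : 0 ≤ c)
    (hP : ‖P‖ ≤ c) :
    ∃ T : F →L[ℝ] F, FiniteDimensional ℝ (LinearMap.range (T : F →ₗ[ℝ] F)) ∧ ‖T‖ ≤ c ∧
      ∀ u : F, ((T u : F) : X) = P u := by
  let T : F →L[ℝ] F := (P.comp F.subtypeL).codRestrict F (fun u => hV (h u u.2))
  refine ⟨T, ?_, ?_, fun _ => rfl⟩
  · let W : Submodule ℝ F := V.comap F.subtype
    have hW : FiniteDimensional ℝ W := by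
      let e : W →ₗ[ℝ] V :=
        { toFun := fun w => ⟨((w : F) : X), w.2⟩
          map_add' := fun _ _ => rfl
          map_smul' := fun _ _ => rfl }
      apply FiniteDimensional.of_injective e
      intro a b hab
      have := congrArg (fun v : V => (v : X)) hab
      exact Subtype.ext (Subtype.ext this)
    have hle : LinearMap.range (T : F →ₗ[ℝ] F) ≤ W := by
      rintro _ ⟨u, rfl⟩
      exact h u u.2
    exact Submodule.finiteDimensional_of_le hle
  · apply ContinuousLinearMap.opNorm_le_bound _ hc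
    intro u
    have h1 : ‖T u‖ = ‖P u‖ := rfl
    rw [h1]
    calc ‖P u‖ ≤ ‖P‖ * ‖(u : X)‖ := P.le_opNorm _
      _ ≤ c * ‖u‖ := mul_le_mul_of_nonneg_right hP (norm_nonneg _)

lemma exists_finset_support (δ : ι → X) (u : X)
    (hu : u ∈ Submodule.span ℝ (Set.range δ)) :
    ∃ A : Finset ι, u ∈ Submodule.span ℝ (δ '' (A : Set ι)) := by
  classical
  induction hu using Submodule.span_induction with
  | mem x hx =>
    obtain ⟨a, rfl⟩ := hx
    exact ⟨{a}, Submodule.subset_span ⟨a, by simp, rfl⟩⟩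
  | zero => exact ⟨∅, Submodule.zero_mem _⟩
  | add x y _ _ ihx ihy =>
    obtain ⟨A, hA⟩ := ihx
    obtain ⟨B, hB⟩ := ihy
    refine ⟨A ∪ B, Submodule.add_mem _ ?_ ?_⟩
    · exact Submodule.span_mono (Set.image_mono (by simp)) hA
    · exact Submodule.span_mono (Set.image_mono (by simp)) hB
  | smul c x _ ih =>
    obtain ⟨A, hA⟩ := ih
    exact ⟨A, Submodule.smul_mem _ _ hA⟩

/-- Finite rank operators fixing finitely many generators give the bounded approximation
property. -/
theorem hasBAP_closedSpan (δ : ι → X) {c : ℝ} (hc : 0 ≤ c)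
    (H : ∀ A : Finset ι, ∃ P : X →L[ℝ] X, ∃ B : Set ι, B.Finite ∧
      (∀ i, P (δ i) ∈ Submodule.span ℝ (δ '' B)) ∧ ‖P‖ ≤ c ∧ ∀ a ∈ A, P (δ a) = δ a) :
    HasBAP (closedSpan δ) c := by
  classical
  intro C hC ε hε
  set η : ℝ := ε / (2 * (c + 1)) / 2 with hη
  have hL1 : 0 < c + 1 := by linarith
  have hηpos : 0 < η := by positivity
  obtain ⟨t, htC, htfin, htcov⟩ := hC.finite_cover_balls hηpos
  have happ : ∀ u : closedSpan δ, ∃ v : X,
      v ∈ Submodule.span ℝ (Set.range δ) ∧ ‖(u : X) - v‖ < η := by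
    intro u
    have hu : (u : X) ∈
        closure ((Submodule.span ℝ (Set.range δ) : Submodule ℝ X) : Set X) := u.2
    rw [Metric.mem_closure_iff] at hu
    obtain ⟨v, hv, hv'⟩ := hu η hηpos
    exact ⟨v, hv, by rw [← dist_eq_norm]; exact hv'⟩
  choose v hv1 hv2 using happ
  choose B hB using fun u : closedSpan δ => exists_finset_support δ (v u) (hv1 u)
  let A : Finset ι := htfin.toFinset.biUnion B
  obtain ⟨P, B', hB', hPB, hPc, hPA⟩ := H A
  let V : Submodule ℝ X := Submodule.span ℝ (δ '' B')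
  have hVdim : FiniteDimensional ℝ V := FiniteDimensional.span_of_finite ℝ (hB'.image _)
  have hVclosed : IsClosed (V : Set X) := Submodule.closed_of_finiteDimensional V
  have hVle : V ≤ closedSpan δ :=
    le_trans (Submodule.span_mono (Set.image_subset_range _ _)) (span_le_closedSpan δ)
  have hmap : ∀ u ∈ closedSpan δ, P u ∈ V := by
    have h1 : Submodule.span ℝ (Set.range δ) ≤ V.comap (P : X →ₗ[ℝ] X) := by
      rw [Submodule.span_le]
      rintro _ ⟨x, rfl⟩
      exact hPB x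
    have h2 : IsClosed ((V.comap (P : X →ₗ[ℝ] X) : Submodule ℝ X) : Set X) :=
      hVclosed.preimage P.continuous
    have h3 : closedSpan δ ≤ V.comap (P : X →ₗ[ℝ] X) :=
      Submodule.topologicalClosure_minimal _ h1 h2
    exact fun u hu => h3 hu
  obtain ⟨T, hT1, hT2, hT3⟩ := exists_restrict (closedSpan δ) P V hVle hmap hc hPc
  refine ⟨T, hT1, hT2, ?_⟩
  have hfix : ∀ u ∈ t, P (v u) = v u := by
    intro u hu
    have h1 : Submodule.span ℝ (δ '' (B u : Set ι)) ≤ LinearMap.eqLocus (P : X →ₗ[ℝ] X)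
        LinearMap.id := by
      rw [Submodule.span_le]
      rintro _ ⟨a, ha, rfl⟩
      show P (δ a) = δ a
      apply hPA
      rw [Finset.mem_biUnion]
      exact ⟨u, by simpa using hu, ha⟩
    exact h1 (hB u)
  intro u hu
  obtain ⟨u', hu't, hu'⟩ := Set.mem_iUnion₂.1 (htcov hu)
  rw [Metric.mem_ball, dist_eq_norm u u'] at hu'
  let w : closedSpan δ := ⟨v u', span_le_closedSpan δ (hv1 u')⟩
  have hw : T w = w := Subtype.ext (by rw [hT3]; exact hfix u' hu't)
  have hw2 : ‖u' - w‖ < η := hv2 u'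
  have huw : ‖u - w‖ < 2 * η := by
    calc ‖u - w‖ = ‖(u - u') + (u' - w)‖ := by congr 1; abel
      _ ≤ ‖u - u'‖ + ‖u' - w‖ := norm_add_le _ _
      _ < 2 * η := by linarith
  have h1 : T u - u = T (u - w) - (u - w) := by
    rw [T.map_sub, hw]; abel
  rw [h1]
  calc ‖T (u - w) - (u - w)‖ ≤ ‖T (u - w)‖ + ‖u - w‖ := norm_sub_le _ _
    _ ≤ c * ‖u - w‖ + ‖u - w‖ := by
      gcongr
      exact (T.le_opNorm _).trans (mul_le_mul_of_nonneg_right hT2 (norm_nonneg _))
    _ = (c + 1) * ‖u - w‖ := by ring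
    _ < (c + 1) * (2 * η) := by gcongr
    _ ≤ ε := by
      rw [hη]
      have : (c + 1) * (2 * (ε / (2 * (c + 1)) / 2)) = ε / 2 := by
        field_simp
      rw [this]
      linarith

end generic

/-- From finite range Lipschitz maps to the bounded approximation property. -/
theorem hasBAP_of_maps {L : ℝ} (hL : 0 < L)
    (H : ∀ A : Finset M, A.Nonempty → ∃ φ : M → M, (Set.range φ).Finite ∧ (∀ a ∈ A, φ a = a) ∧
      ∀ x y, dist (φ x) (φ y) ≤ L * dist x y) :
    FreeSpaceHasBAP M o L := by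
  classical
  apply hasBAP_closedSpan (δ := delta o) hL.le
  intro A
  obtain ⟨φ, hφfin, hφA, hφL⟩ := H (insert o A) ⟨o, Finset.mem_insert_self _ _⟩
  have h0 : φ o = o := hφA o (Finset.mem_insert_self _ _)
  refine ⟨push φ h0 L hL hφL, Set.range φ, hφfin, ?_, ?_, ?_⟩
  · intro x
    rw [push_delta]
    exact Submodule.subset_span ⟨φ x, ⟨x, rfl⟩, rfl⟩
  · exact norm_push_le φ h0 L hL hφL
  · intro a ha
    rw [push_delta, hφA a (Finset.mem_insert_of_mem ha)]

end Vale.Agent.H11.FreeBAP
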