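import Mathlib

open Set

namespace Vale.Agent.H11.FreeBAP

/-- The closed unit ball of `Lip_0(M)`, with the topology of pointwise convergence. -/
abbrev LipBall (M : Type*) [MetricSpace M] (o : M) : Type _ :=
  {f : M → ℝ // f o = 0 ∧ ∀ x y, |f x - f y| ≤ dist x y}

lemma abs_le_of_ball {M : Type*} [MetricSpace M] {o : M} (x : M) (f : LipBall M o) :
    ‖f.1 x‖ ≤ dist x o := by
  have := f.2.2 x o
  rwa [f.2.1, sub_zero] at this

lemma continuous_eval {M : Type*} [MetricSpace M] {o : M} (x : M) :
    Continuous (fun f : LipBall M o => f.1 x) :=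
  (continuous_apply x).comp continuous_subtype_val

/-- The evaluation functional, restricted to the closed unit ball of `Lip_0(M)`. -/
noncomputable def delta {M : Type*} [MetricSpace M] (o x : M) :
    BoundedContinuousFunction (LipBall M o) ℝ :=
  BoundedContinuousFunction.ofNormedAddCommGroup (fun f => f.1 x) (continuous_eval x)
    (dist x o) (abs_le_of_ball x)

/-- The closed linear span of a family of vectors. -/
noncomputable def closedSpan {X ι : Type*} [NormedAddCommGroup X] [NormedSpace ℝ X]
    (δ : ι → X) : Submodule ℝ X :=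
  (Submodule.span ℝ (Set.range δ)).topologicalClosure

/-- The bounded approximation property with constant `c`. -/
def HasBAP (X : Type*) [NormedAddCommGroup X] [NormedSpace ℝ X] (c : ℝ) : Prop :=
  ∀ C : Set X, IsCompact C → ∀ ε > 0, ∃ T : X →L[ℝ] X,
    FiniteDimensional ℝ (LinearMap.range (T : X →ₗ[ℝ] X)) ∧ ‖T‖ ≤ c ∧
      ∀ u ∈ C, ‖T u - u‖ < ε

/-- The closed linear span of a family of vectors has the bounded approximation property. -/
def SpanHasBAP {X ι : Type*} [NormedAddCommGroup X] [NormedSpace ℝ X]
    (δ : ι → X) (c : ℝ) : Prop := HasBAP (closedSpan δ) c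

/-- The Lipschitz-free space over the pointed space `(M, o)` has the bounded approximation
property with constant `c`. -/
def FreeSpaceHasBAP (M : Type*) [MetricSpace M] (o : M) (c : ℝ) : Prop :=
  SpanHasBAP (delta o) c

end Vale.Agent.H11.FreeBAP
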